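import Mathlib

/-!
Definitions for the proof of Lech's inequality in prime characteristic.
See notes P202 Blueprint for the mathematics.
-/

namespace Vale.Agent.P202

open IsLocalRing TensorProduct

universe u

noncomputable section

/-- An additive `ℕ∞`-valued invariant of modules. -/
structure LenFun (S : Type u) [CommRing S] where
  len : ∀ (M : Type u) [AddCommGroup M] [Module S M], ℕ∞
  add_of_exact : ∀ {N M P : Type u} [AddCommGroup N] [Module S N] [AddCommGroup M] [Module S M]
    [AddCommGroup P] [Module S P] (f : N →ₗ[S] M) (g : M →ₗ[S] P), Function.Injective f →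
    Function.Surjective g → Function.Exact f g → len M = len N + len P
  zero : ∀ (M : Type u) [AddCommGroup M] [Module S M] [Subsingleton M], len M = 0

/-- Ordinary length. -/
def lenF (S : Type u) [CommRing S] : LenFun S where
  len M := Module.length S M
  add_of_exact f g hf hg h := Module.length_eq_add_of_exact f g hf hg h
  zero _ := Module.length_eq_zero

open Classical in
/-- `0` on finitely generated modules, `⊤` otherwise. -/
def fgF (S : Type u) [CommRing S] [IsNoetherianRing S] : LenFun S where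
  len M := if Module.Finite S M then 0 else ⊤
  add_of_exact := by
    intro N M P _ _ _ _ _ _ f g hf hg h
    by_cases hM : Module.Finite S M
    · have hN : Module.Finite S N := Module.Finite.of_injective f hf
      have hP : Module.Finite S P := Module.Finite.of_surjective g hg
      simp [hM, hN, hP]
    · by_cases hN : Module.Finite S N
      · by_cases hP : Module.Finite S P
        · exact absurd (Module.Finite.of_exact h hg) hM
        · simp [hM, hP]
      · simp [hM, hN]
  zero M _ _ _ := by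
    have : Module.Finite S M := inferInstance
    simp [this]

section complexes

variable {S : Type u} [CommRing S] {E : Type u} [AddCommGroup E] [Module S E]

/-- The size of the subquotient `(A ⊔ B) / A`. -/
def rl (μ : LenFun S) (A B : Submodule S E) : ℕ∞ := μ.len (B.map A.mkQ)

/-- A family of submodules of the ambient module that is stable under `d` (degree `-1`). -/
def IsCx (d : E →ₗ[S] E) (F : ℤ → Submodule S E) : Prop := ∀ n, (F n).map d ≤ F (n - 1)

/-- Cycles of the quotient complex `F'' / F'`, as a submodule of the ambient module. -/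
def Zc (d : E →ₗ[S] E) (F' F'' : ℤ → Submodule S E) (n : ℤ) : Submodule S E :=
  F'' n ⊓ (F' (n - 1)).comap d

/-- Boundaries of the quotient complex `F'' / F'`, as a submodule of the ambient module. -/
def Bc (d : E →ₗ[S] E) (F' F'' : ℤ → Submodule S E) (n : ℤ) : Submodule S E :=
  F' n ⊔ (F'' (n + 1)).map d

/-- Size of the `n`-th homology of `F'' / F'`. -/
def hh (μ : LenFun S) (d : E →ₗ[S] E) (F' F'' : ℤ → Submodule S E) (n : ℤ) : ℕ∞ :=
  rl μ (Bc d F' F'' n) (Zc d F' F'' n)

/-- `F'' / F'` is acyclic. -/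
def Exa (d : E →ₗ[S] E) (F' F'' : ℤ → Submodule S E) : Prop :=
  ∀ n, Zc d F' F'' n ≤ Bc d F' F'' n

/-- The total homology of `F'' / F'` has finite length. -/
def Good (d : E →ₗ[S] E) (F' F'' : ℤ → Submodule S E) : Prop :=
  (∀ n, hh (lenF S) d F' F'' n ≠ ⊤) ∧ {n | hh (lenF S) d F' F'' n ≠ 0}.Finite

/-- Euler characteristic of `F'' / F'`. -/
def chi (d : E →ₗ[S] E) (F' F'' : ℤ → Submodule S E) : ℤ :=
  ∑ᶠ n : ℤ, ((n.negOnePow : ℤˣ) : ℤ) * ((hh (lenF S) d F' F'' n).toNat : ℤ)

/-- Total length of the homology of `F'' / F'`. -/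
def tot (d : E →ₗ[S] E) (F' F'' : ℤ → Submodule S E) : ℕ :=
  ∑ᶠ n : ℤ, (hh (lenF S) d F' F'' n).toNat

/-- Total complex of a bigraded family. -/
def Tot (X : ℤ → ℤ → Submodule S E) (n : ℤ) : Submodule S E := ⨆ i, X i (n - i)

/-- A double complex: `d0` lowers the second index, `d1` lowers the first index and `P i`
projects onto first index `i`. -/
structure Bi (d0 d1 : E →ₗ[S] E) (P : ℤ → E →ₗ[S] E) (X : ℤ → ℤ → Submodule S E) : Prop where
  map0 : ∀ i j, (X i j).map d0 ≤ X i (j - 1)
  map1 : ∀ i j, (X i j).map d1 ≤ X (i - 1) j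
  fix : ∀ i j, ∀ x ∈ X i j, P i x = x
  kill : ∀ i i' j, i' ≠ i → ∀ x ∈ X i j, P i' x = 0

/-- Functions with values in `N` that vanish outside the predicate `p`. -/
def Coord {ι : Type} (p : ι → Prop) [DecidablePred p] (N : Submodule S E) :
    Submodule S (ι → E) :=
  Submodule.pi Set.univ fun A => if p A then N else ⊥

end complexes

section koszul

variable {S : Type u} [CommRing S] {d : ℕ}

/-- Koszul sign. -/
def ksgn (A : Finset (Fin d)) (i : Fin d) : ℤ := (-1) ^ (A.filter (· < i)).card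

/-- Koszul differential on `Finset (Fin d) → M`. -/
def kd (y : Fin d → S) (M : Type u) [AddCommGroup M] [Module S M] :
    (Finset (Fin d) → M) →ₗ[S] (Finset (Fin d) → M) :=
  LinearMap.pi fun A => ∑ i ∈ Aᶜ,
    (((ksgn A i : ℤ) : S) * y i) • (LinearMap.proj (insert i A) : (Finset (Fin d) → M) →ₗ[S] M)

/-- Exterior multiplication by the `i`-th basis vector. -/
def kh (S : Type u) [CommRing S] (i : Fin d) (M : Type u) [AddCommGroup M] [Module S M] :
    (Finset (Fin d) → M) →ₗ[S] (Finset (Fin d) → M) :=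
  LinearMap.pi fun A => if i ∈ A then
    ((ksgn A i : ℤ) : S) • (LinearMap.proj (A.erase i) : (Finset (Fin d) → M) →ₗ[S] M) else 0

/-- Projection onto Koszul degree `n`. -/
def kP (S : Type u) [CommRing S] (d : ℕ) (M : Type u) [AddCommGroup M] [Module S M] (n : ℤ) :
    (Finset (Fin d) → M) →ₗ[S] (Finset (Fin d) → M) :=
  LinearMap.pi fun A => if (A.card : ℤ) = n then
    (LinearMap.proj A : (Finset (Fin d) → M) →ₗ[S] M) else 0

variable {M : Type u} [AddCommGroup M] [Module S M]

/-- The Koszul complex on the variables in `T` with coefficients in `N`. -/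
def Kos (T : Finset (Fin d)) (N : Submodule S M) (n : ℤ) : Submodule S (Finset (Fin d) → M) :=
  Coord (fun A => A ⊆ T ∧ (A.card : ℤ) = n) N

/-- Koszul Euler characteristic (multiplicity symbol) of `N'' / N'`. -/
def eps (y : Fin d → S) (T : Finset (Fin d)) (N' N'' : Submodule S M) : ℤ :=
  chi (kd y M) (Kos T N') (Kos T N'')

/-- Finiteness hypothesis making the Koszul homology of `N'' / N'` of finite length. -/
def KHyp [IsLocalRing S] (y : Fin d → S) (T : Finset (Fin d)) (N' N'' : Submodule S M) : Prop :=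
  N' ≤ N'' ∧ (N''.map N'.mkQ).FG ∧
    ∃ t : ℕ, maximalIdeal S ^ t ≤ Ideal.span (y '' T) ⊔ N'.colon N''

/-- The signed horizontal differential `(-1)^|A| • f` on `Finset (Fin d) → M`. -/
def sd (d : ℕ) (f : M →ₗ[S] M) : (Finset (Fin d) → M) →ₗ[S] (Finset (Fin d) → M) :=
  LinearMap.pi fun A => (((-1 : ℤ) ^ A.card : ℤ) : S) •
    (f ∘ₗ (LinearMap.proj A : (Finset (Fin d) → M) →ₗ[S] M))

end koszul

section cech

/-- The three charts of the projective line. -/
inductive Ch where
  | U : Ch
  | V : Ch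
  | W : Ch
  deriving DecidableEq

instance : Fintype Ch := ⟨{Ch.U, Ch.V, Ch.W}, by intro x; cases x <;> simp⟩

variable {m : ℕ}

/-- Cech degree of a chart of `(P^1)^m`. -/
def cdeg (J : Fin m → Ch) : ℕ := (Finset.univ.filter fun j => J j = Ch.W).card

/-- Cech sign. -/
def csgn (J : Fin m → Ch) (j : Fin m) : ℤ :=
  (-1) ^ (Finset.univ.filter fun l => l < j ∧ J l = Ch.W).card

/-- Cech differential. -/
def cd (R : Type u) [CommRing R] (m : ℕ) (M : Type u) [AddCommGroup M] [Module R M] :
    ((Fin m → Ch) → M) →ₗ[R] ((Fin m → Ch) → M) :=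
  LinearMap.pi fun J => ∑ j ∈ Finset.univ.filter (fun j => J j = Ch.W),
    ((csgn J j : ℤ) : R) •
      ((LinearMap.proj (Function.update J j Ch.U) : ((Fin m → Ch) → M) →ₗ[R] M) -
        (LinearMap.proj (Function.update J j Ch.V) : ((Fin m → Ch) → M) →ₗ[R] M))

/-- Projection onto homological degree `n`, that is Cech degree `-n`. -/
def cP (R : Type u) [CommRing R] (m : ℕ) (M : Type u) [AddCommGroup M] [Module R M] (n : ℤ) :
    ((Fin m → Ch) → M) →ₗ[R] ((Fin m → Ch) → M) :=
  LinearMap.pi fun J => if (cdeg J : ℤ) = -n then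
    (LinearMap.proj J : ((Fin m → Ch) → M) →ₗ[R] M) else 0

variable {R : Type u} [CommRing R] {M : Type u} [AddCommGroup M] [Module R M]

/-- The Cech complex of a family of submodules, in homological degree `n`. -/
def Cech (D : (Fin m → Ch) → Submodule R M) (n : ℤ) : Submodule R ((Fin m → Ch) → M) :=
  Submodule.pi Set.univ fun J => if (cdeg J : ℤ) = -n then D J else ⊥

/-- The family is compatible with restriction. -/
def CMono (D : (Fin m → Ch) → Submodule R M) : Prop :=
  ∀ J j, J j = Ch.W → D (Function.update J j Ch.U) ≤ D J ∧ D (Function.update J j Ch.V) ≤ D J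

end cech

section monomial

/-- Laurent polynomials in `m` variables. -/
abbrev Lau (A : Type u) [CommRing A] (m : ℕ) : Type u := AddMonoidAlgebra A (Fin m → ℤ)

variable {m : ℕ}

/-- Exponents allowed on the chart `J` for the line bundle `O(b)`. -/
def Om (b : Fin m → ℤ) (J : Fin m → Ch) : Set (Fin m → ℤ) :=
  {β | ∀ j, (J j = Ch.U → 0 ≤ β j) ∧ (J j = Ch.V → β j ≤ b j)}

/-- Sections of `O(b)` on the chart `J`. -/
def Cm (A : Type u) [CommRing A] (b : Fin m → ℤ) (J : Fin m → Ch) : Submodule A (Lau A m) :=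
  AddMonoidAlgebra.supported A A (Om b J)

/-- Monomial basis of the cohomology of `O(b)`. -/
def Box (b : Fin m → ℤ) : Finset (Fin m → ℤ) :=
  Fintype.piFinset fun j => if 0 ≤ b j then Finset.Icc 0 (b j) else Finset.Ioo (b j) 0

/-- The chart carrying the cohomology of `O(b)`. -/
def Jstar (b : Fin m → ℤ) : Fin m → Ch := fun j => if 0 ≤ b j then Ch.V else Ch.W

/-- The variable `w j`. -/
def wv (A : Type u) [CommRing A] (j : Fin m) : Lau A m :=
  AddMonoidAlgebra.single (Pi.single j 1) 1

/-- The elementary symmetric polynomials of the variables. -/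
def ee (A : Type u) [CommRing A] (m : ℕ) (i : Fin (m + 1)) : Lau A m :=
  (∏ j : Fin m, (1 + Polynomial.C (wv A j) * Polynomial.X : Polynomial (Lau A m))).coeff i

/-- `X i ↦ ee i`. -/
def psi (A : Type u) [CommRing A] (m : ℕ) : MvPolynomial (Fin (m + 1)) A →ₐ[A] Lau A m :=
  MvPolynomial.aeval (ee A m)

variable {A : Type u} [CommRing A]

/-- Homogeneous ideals. -/
def IsHom {σ : Type} (c : Ideal (MvPolynomial σ A)) : Prop :=
  ∀ f ∈ c, ∀ γ : ℕ, MvPolynomial.homogeneousComponent γ f ∈ c

/-- Shift of a multidegree. -/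
def sh (b : Fin m → ℤ) (s : ℤ) : Fin m → ℤ := fun j => b j + s

/-- Sections on the chart `J` of the ideal sheaf generated by `c`, twisted by `O(b)`. -/
def CI (c : Ideal (MvPolynomial (Fin (m + 1)) A)) (b : Fin m → ℤ) (J : Fin m → Ch) :
    Submodule A (Lau A m) :=
  Submodule.span A {z | ∃ (γ : ℕ) (f : MvPolynomial (Fin (m + 1)) A) (v : Lau A m),
    f ∈ c ∧ f.IsHomogeneous γ ∧ v ∈ Cm A (sh b (-γ)) J ∧ z = psi A m f * v}

end monomial

section sigma

variable {R : Type u} [CommRing R] {m : ℕ}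

/-- The ideal of relations `x i = x 0 * e i`. -/
def jj (x : Fin (m + 1) → R) : Ideal (Lau R m) :=
  Ideal.span (Set.range fun i =>
    algebraMap R (Lau R m) (x i) - algebraMap R (Lau R m) (x 0) * ee R m i)

/-- The splitting algebra of `∑ x i T ^ i` over the fraction field. -/
abbrev Sig (x : Fin (m + 1) → R) : Type u :=
  Localization (Algebra.algebraMapSubmonoid (Lau R m ⧸ jj x) (nonZeroDivisors R))

/-- The canonical map to the splitting algebra. -/
def toSig (x : Fin (m + 1) → R) : Lau R m →ₐ[R] Sig x :=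
  (IsScalarTower.toAlgHom R (Lau R m ⧸ jj x) (Sig x)).comp (Ideal.Quotient.mkₐ R (jj x))

/-- The filtered Cech data: `u` is the unit `x 0` of `Sig x`. -/
def DD (x : Fin (m + 1) → R) (u : (Sig x)ˣ) (a : Fin m → ℤ) (s : ℤ) (J : Fin m → Ch) :
    Submodule R (Sig x) :=
  (Cm R (sh a s) J).map
    ((LinearMap.mulLeft R ((u ^ s : (Sig x)ˣ) : Sig x)) ∘ₗ (toSig x).toLinearMap)

/-- The defining ideal of the Rees algebra. -/
def ReesI {d : ℕ} (x : Fin d → R) : Ideal (MvPolynomial (Fin d) R) :=
  RingHom.ker (MvPolynomial.aeval (R := R)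
    (fun i => (Polynomial.C (x i) * Polynomial.X : Polynomial R))).toRingHom

/-- The annihilator of the graded piece `(a + f) I^s / a I^s`. -/
def StepI {d : ℕ} (x : Fin d → R) (a : Ideal R) (f : R) : Ideal (MvPolynomial (Fin d) R) :=
  (ReesI x ⊔ a.map (MvPolynomial.C : R →+* MvPolynomial (Fin d) R)).colon {MvPolynomial.C f}

/-- A composition chain of `R / (x)`. -/
structure IsChain [IsLocalRing R] {d : ℕ} (x : Fin d → R) (r : ℕ) (a : ℕ → Ideal R)
    (f : ℕ → R) : Prop where
  zero : a 0 = Ideal.span (Set.range x)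
  last : a r = ⊤
  step : ∀ i < r, a (i + 1) = a i ⊔ Ideal.span {f i}
  kill : ∀ i < r, ∀ z ∈ maximalIdeal R, z * f i ∈ a i

open Classical in
/-- The number of free steps of a chain; it is the multiplicity of `(x)`. -/
def eChain [IsLocalRing R] {d : ℕ} (x : Fin d → R) (r : ℕ) (a : ℕ → Ideal R) (f : ℕ → R) : ℕ :=
  ((Finset.range r).filter fun i => StepI x (a i) (f i) ≤
    (maximalIdeal R).map (MvPolynomial.C : R →+* MvPolynomial (Fin d) R)).card

/-- The normalized Hilbert-Samuel function. -/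
def HS (A : Type u) [CommRing A] (I : Ideal A) (d : ℕ) (n : ℕ) : ℝ :=
  (d.factorial : ℝ) * ((Module.length A (A ⧸ I ^ n)).toNat : ℝ) / (n : ℝ) ^ d

end sigma

section tensor

variable {R0 : Type u} [CommRing R0] {S : Type u} [CommRing S] [Algebra R0 S]
  {E : Type u} [AddCommGroup E] [Module R0 E]

/-- The image of `N ⊗ D`. -/
def br {ι : Type} (N : Submodule S (ι → S)) (D : Submodule R0 E) :
    Submodule S (ι → S ⊗[R0] E) :=
  Submodule.span S {η | ∃ ξ ∈ N, ∃ v ∈ D, η = fun A => ξ A ⊗ₜ[R0] v}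

/-- The total differential on `K(y) ⊗ E`. -/
def dtot {d : ℕ} (y : Fin d → S) (δ : E →ₗ[R0] E) :
    (Finset (Fin d) → S ⊗[R0] E) →ₗ[S] (Finset (Fin d) → S ⊗[R0] E) :=
  kd y (S ⊗[R0] E) + sd d (δ.baseChange S)

/-- The double complex `K(y) ⊗ D`. -/
def Fil (S : Type u) [CommRing S] [Algebra R0 S] (d : ℕ) (D : ℤ → Submodule R0 E) (i n : ℤ) :
    Submodule S (Finset (Fin d) → S ⊗[R0] E) :=
  Kos Finset.univ ((D n).baseChange S) i

/-- The ideal `m S`. -/
abbrev mS (R0 S : Type u) [CommRing R0] [IsLocalRing R0] [CommRing S] [Algebra R0 S] : Ideal S :=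
  (maximalIdeal R0).map (algebraMap R0 S)

/-- The coefficients of the main inequality. -/
def cc (R0 : Type u) [CommRing R0] [IsLocalRing R0] [Algebra R0 S] {d : ℕ} (y : Fin d → S)
    (l : ℤ) : ℤ :=
  ((l.negOnePow : ℤˣ) : ℤ) *
      ((rl (lenF S) (mS R0 S • Kos Finset.univ (⊤ : Submodule S S) l)
        (Kos Finset.univ (⊤ : Submodule S S) l ⊓
          (mS R0 S • Kos Finset.univ (⊤ : Submodule S S) (l - 1)).comap (kd y S))).toNat : ℤ) +
    ∑ i ∈ Finset.Icc (l + 1) (d : ℤ), ((i.negOnePow : ℤˣ) : ℤ) *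
      ((rl (lenF S) (mS R0 S • Kos (d := d) Finset.univ (⊤ : Submodule S S) i)
        (Kos Finset.univ (⊤ : Submodule S S) i)).toNat : ℤ)

/-- Growth hypothesis: proper quotients of `R0` have Hilbert-Samuel growth `O(j^(d-1))`. -/
def Grow (R0 : Type u) [CommRing R0] [IsLocalRing R0] (d : ℕ) : Prop :=
  ∀ c : R0, c ≠ 0 → ∃ C : ℕ, ∀ j : ℕ,
    Module.length R0 (R0 ⧸ (Ideal.span {c} ⊔ maximalIdeal R0 ^ j)) * j ≤ C * (j : ℕ∞) ^ d

end tensor

end

end Vale.Agent.P202
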